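import Vale.Agent.P235.ST.H317.Defs

/-! P235, (ST) O(1): rows r1, r2 (clocks). helper826. -/

namespace Vale.Agent.P235.STO.H826

open SimpleGraph

variable {V : Type} (W : LWorld V)

theorem th_pos (k : ℕ) : 0 < th k := by
  unfold th
  positivity

theorem dist_le_of_le {G H : SimpleGraph V} (hle : H ≤ G) {x y : V} (h : H.Reachable x y) :
    G.dist x y ≤ H.dist x y := by
  obtain ⟨w, hw⟩ := h.exists_walk_length_eq_dist
  have h1 := dist_le (w.mapLe hle)
  rw [Walk.length_map] at h1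
  omega

theorem Bg_le (k m : ℕ) : W.Bg k m ≤ W.G := fun _ _ h => h.1

/-- a walk of `G` inside a band is a walk of the band graph of the same length -/
theorem lift_walk (k m : ℕ) {x y : V} (g : W.G.Walk x y)
    (h : ∀ z ∈ g.support, W.bi k m z = W.bi k m x) :
    ∃ w : (W.Bg k m).Walk x y, w.length = g.length ∧ w.support = g.support := by
  induction g with
  | nil => exact ⟨Walk.nil, rfl, rfl⟩
  | @cons a c b hac p ih =>
    have hc : W.bi k m c = W.bi k m a := h c (by simp)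
    obtain ⟨w, h1, h2⟩ := ih (fun z hz => by rw [h z (by simp [hz]), hc])
    refine ⟨Walk.cons (show (W.Bg k m).Adj a c from ⟨hac, hc.symm⟩) w, ?_, ?_⟩
    · rw [Walk.length_cons, Walk.length_cons, h1]
    · rw [Walk.support_cons, Walk.support_cons, h2]

theorem reach_of_walk (k m : ℕ) {x y : V} (g : W.G.Walk x y)
    (h : ∀ z ∈ g.support, W.bi k m z = W.bi k m x) :
    (W.Bg k m).Reachable x y ∧ (W.Bg k m).dist x y ≤ g.length := by
  obtain ⟨w, h1, _⟩ := lift_walk W k m g h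
  exact ⟨w.reachable, h1 ▸ dist_le w⟩

theorem bi_of_walk (k m : ℕ) {x y : V} (w : (W.Bg k m).Walk x y) :
    W.bi k m x = W.bi k m y := by
  induction w with
  | nil => rfl
  | cons hxy _ ih => exact hxy.2.trans ih

theorem bi_of_reach (k m : ℕ) {x y : V} (h : (W.Bg k m).Reachable x y) :
    W.bi k m x = W.bi k m y ∧ W.G.dist x y ≤ (W.Bg k m).dist x y := by
  obtain ⟨w⟩ := id h
  exact ⟨bi_of_walk W k m w, dist_le_of_le (Bg_le W k m) h⟩

/-- heights inside one band differ by less than the thickness -/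
theorem band_lt (k m : ℕ) {a b : V} (h : W.bi k m a = W.bi k m b) : |W.u a - W.u b| < th k := by
  unfold LWorld.bi at h
  have hp := th_pos k
  have e1 := Int.emod_add_mul_ediv (W.u a + m * 2 ^ k) (th k)
  have e2 := Int.emod_add_mul_ediv (W.u b + m * 2 ^ k) (th k)
  have l1 := Int.emod_nonneg (W.u a + m * 2 ^ k) hp.ne'
  have l2 := Int.emod_nonneg (W.u b + m * 2 ^ k) hp.ne'
  have l3 := Int.emod_lt_of_pos (W.u a + m * 2 ^ k) hp
  have l4 := Int.emod_lt_of_pos (W.u b + m * 2 ^ k) hp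
  rw [h] at e1
  rw [abs_lt]
  constructor <;> linarith

/-- a height between two heights of one band is in the band -/
theorem band_mid (k m : ℕ) {a b c : V} (h : W.bi k m a = W.bi k m b)
    (h1 : min (W.u a) (W.u b) ≤ W.u c) (h2 : W.u c ≤ max (W.u a) (W.u b)) :
    W.bi k m c = W.bi k m a := by
  unfold LWorld.bi at h ⊢
  have hp := th_pos k
  rcases le_total (W.u a) (W.u b) with hle | hle
  · rw [min_eq_left hle] at h1
    rw [max_eq_right hle] at h2
    have m1 := Int.ediv_le_ediv hp (add_le_add_left h1 ((m : ℤ) * 2 ^ k))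
    have m2 := Int.ediv_le_ediv hp (add_le_add_left h2 ((m : ℤ) * 2 ^ k))
    omega
  · rw [min_eq_right hle] at h1
    rw [max_eq_left hle] at h2
    have m1 := Int.ediv_le_ediv hp (add_le_add_left h1 ((m : ℤ) * 2 ^ k))
    have m2 := Int.ediv_le_ediv hp (add_le_add_left h2 ((m : ℤ) * 2 ^ k))
    omega

/-- walks change the height by at most their length -/
theorem walk_u {G : SimpleGraph V} {u : V → ℤ} (hu : ∀ x y, G.Adj x y → |u x - u y| = 1)
    {a b : V} (w : G.Walk a b) : |u a - u b| ≤ w.length := by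
  induction w with
  | nil => simp
  | @cons a c b hac p ih =>
    have h1 := hu _ _ hac
    have h2 := abs_sub_le (u a) (u c) (u b)
    rw [Walk.length_cons]
    push_cast
    linarith

theorem walk_u_mid {G : SimpleGraph V} {u : V → ℤ} (hu : ∀ x y, G.Adj x y → |u x - u y| = 1)
    {a b : V} (w : G.Walk a b) {z : V} (hz : z ∈ w.support) :
    |u a - u z| + |u z - u b| ≤ w.length := by
  classical
  have e := congrArg Walk.length (w.take_spec hz)
  rw [Walk.length_append] at e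
  have h1 := walk_u hu (w.takeUntil z hz)
  have h2 := walk_u hu (w.dropUntil z hz)
  have h3 : ((w.takeUntil z hz).length : ℤ) + (w.dropUntil z hz).length = w.length := by
    exact_mod_cast e
  linarith

theorem reach_of_L_aux (k m : ℕ) {p a b : V} (hp : p ∈ W.N) (ha : a ∈ W.L p) (hb : b ∈ W.L p)
    (h : W.bi k m a = W.bi k m b) (hle : W.u a ≤ W.u b) :
    (W.Bg k m).Reachable a b ∧ ((W.Bg k m).dist a b : ℤ) ≤ |W.u a - W.u b| := by
  obtain ⟨q, hl, _⟩ := W.L_path p hp a ha b hb hle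
  have hab : |W.u a - W.u b| = W.u b - W.u a := by
    rw [abs_sub_comm, abs_of_nonneg (by linarith)]
  obtain ⟨h1, h2⟩ := reach_of_walk W k m q (by
    intro z hz
    have h3 := walk_u_mid W.unit q hz
    rw [hl] at h3
    apply band_mid W k m h
    · rw [min_eq_left hle]
      have h4 := le_abs_self (W.u a - W.u z)
      have h5 := neg_abs_le (W.u z - W.u b)
      have h6 := neg_abs_le (W.u a - W.u z)
      have h7 := le_abs_self (W.u z - W.u b)
      by_contra h8
      push Not at h8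
      linarith
    · rw [max_eq_right hle]
      have h4 := le_abs_self (W.u a - W.u z)
      have h5 := neg_abs_le (W.u z - W.u b)
      have h6 := neg_abs_le (W.u a - W.u z)
      have h7 := le_abs_self (W.u z - W.u b)
      by_contra h8
      push Not at h8
      linarith)
  refine ⟨h1, ?_⟩
  rw [hab, ← hl]
  exact_mod_cast h2

theorem reach_of_L (k m : ℕ) {p a b : V} (hp : p ∈ W.N) (ha : a ∈ W.L p) (hb : b ∈ W.L p)
    (h : W.bi k m a = W.bi k m b) :
    (W.Bg k m).Reachable a b ∧ ((W.Bg k m).dist a b : ℤ) ≤ |W.u a - W.u b| := by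
  rcases le_total (W.u a) (W.u b) with hle | hle
  · exact reach_of_L_aux W k m hp ha hb h hle
  · obtain ⟨h1, h2⟩ := reach_of_L_aux W k m hp hb ha h.symm hle
    rw [dist_comm, abs_sub_comm] at h2
    exact ⟨h1.symm, h2⟩

theorem exists_mid (k : ℕ) (z : V) : ∃ m < 16, W.mid k m z := by
  unfold LWorld.mid LWorld.pos th
  have hp : (0 : ℤ) < 2 ^ k := by positivity
  obtain ⟨r, hr⟩ : ∃ r, r = W.u z / 2 ^ k := ⟨_, rfl⟩
  have e1 := Int.emod_add_mul_ediv (W.u z) (2 ^ k)
  have e2 := Int.emod_nonneg (W.u z) hp.ne'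
  have e3 := Int.emod_lt_of_pos (W.u z) hp
  rw [← hr] at e1
  -- choose `m` with `(r + m) % 16 = 8`
  obtain ⟨m, hm, q, hq⟩ : ∃ m : ℕ, m < 16 ∧ ∃ q : ℤ, r + m = 16 * q + 8 := by
    refine ⟨((8 - r) % 16).toNat, ?_, ?_⟩
    · omega
    · refine ⟨(r + ((8 - r) % 16).toNat - 8) / 16, ?_⟩
      omega
  refine ⟨m, hm, ?_⟩
  have e4 : W.u z + m * 2 ^ k = (W.u z % 2 ^ k + 8 * 2 ^ k) + (16 * 2 ^ k) * q := by
    have : W.u z + m * 2 ^ k = W.u z % 2 ^ k + (r + m) * 2 ^ k := by linarith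
    rw [this, hq]
    ring
  rw [e4, Int.add_mul_emod_self_left, Int.emod_eq_of_lt (by linarith) (by linarith)]
  constructor <;> linarith

/-! ### r2 -/

theorem src_mem {k m : ℕ} {x y : V} (hy : y ∈ W.src k m x) :
    (W.Bg k m).Reachable x y ∧ y ∈ W.N ∧ ∀ z ∈ W.N, (W.Bg k m).Reachable x z →
      W.idx y ≤ W.idx z := hy

theorem src_eq (k m : ℕ) {x y : V} (h : (W.Bg k m).Reachable x y) :
    W.src k m x = W.src k m y := by
  ext z
  constructor
  · rintro ⟨h1, h2, h3⟩
    exact ⟨h.symm.trans h1, h2, fun v hv hr => h3 v hv (h.trans hr)⟩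
  · rintro ⟨h1, h2, h3⟩
    exact ⟨h.trans h1, h2, fun v hv hr => h3 v hv (h.symm.trans hr)⟩

theorem src_nonempty (k m : ℕ) {x p : V} (hp : p ∈ W.N) (h : (W.Bg k m).Reachable x p) :
    (W.src k m x).Nonempty := by
  classical
  have hex : ∃ n, ∃ z ∈ W.N, (W.Bg k m).Reachable x z ∧ W.idx z = n := ⟨_, p, hp, h, rfl⟩
  obtain ⟨z, hz, hr, hn⟩ := Nat.find_spec hex
  refine ⟨z, hr, hz, ?_⟩
  intro v hv hvr
  rw [hn]
  exact Nat.find_min' hex ⟨v, hv, hvr, rfl⟩

theorem D_mem (k m : ℕ) {x : V} (h : (W.src k m x).Nonempty) :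
    ∃ y ∈ W.src k m x, W.D k m x = (W.Bg k m).dist x y :=
  Nat.sInf_mem (s := {n | ∃ y ∈ W.src k m x, n = (W.Bg k m).dist x y})
    ⟨_, h.some, h.some_mem, rfl⟩

theorem D_le (k m : ℕ) {x y : V} (hy : y ∈ W.src k m x) :
    W.D k m x ≤ (W.Bg k m).dist x y :=
  Nat.sInf_le ⟨y, hy, rfl⟩

theorem dist_tri {G : SimpleGraph V} {x y z : V} (h1 : G.Reachable x y) (h2 : G.Reachable y z) :
    G.dist x z ≤ G.dist x y + G.dist y z := by
  obtain ⟨w1, e1⟩ := h1.exists_walk_length_eq_dist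
  obtain ⟨w2, e2⟩ := h2.exists_walk_length_eq_dist
  have := dist_le (w1.append w2)
  rw [Walk.length_append, e1, e2] at this
  exact this

theorem D_lip_nat (k m : ℕ) {x y : V} (h : (W.Bg k m).Reachable x y) :
    W.D k m y ≤ W.D k m x + (W.Bg k m).dist x y := by
  rcases (W.src k m x).eq_empty_or_nonempty with he | hne
  · have he2 : W.src k m y = ∅ := by rw [← src_eq W k m h, he]
    have : W.D k m y = 0 := by
      unfold LWorld.D
      rw [he2]
      simp
    omega
  · obtain ⟨z, hz, hD⟩ := D_mem W k m hne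
    have h1 := D_le W k m (x := y) (y := z) (by rw [← src_eq W k m h]; exact hz)
    have h2 := dist_tri h.symm hz.1
    have h3 : (W.Bg k m).dist y x = (W.Bg k m).dist x y := dist_comm
    omega

theorem D_lip [Finite V] (k m : ℕ) {x y : V} (h : (W.Bg k m).Reachable x y) :
    (W.D k m y : ℤ) ≤ W.D k m x + (W.Bg k m).dist x y := by
  exact_mod_cast D_lip_nat W k m h

/-- the key cut: an optimal walk from the left end to `q` meets the line of `p` -/
theorem cut (k m : ℕ) {p q : V} (hp : p ∈ W.N) (hq : q ∈ W.N)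
    (h : (W.Bg k m).Reachable p q) (hi : W.idx p ≤ W.idx q) :
    ∃ z, z ∈ W.L p ∧ (W.Bg k m).Reachable z q ∧
      W.D k m z + (W.Bg k m).dist z q ≤ W.D k m q := by
  obtain ⟨y, hy, hD⟩ := D_mem W k m (src_nonempty W k m hq (Reachable.refl q))
  obtain ⟨w, hw⟩ := hy.1.symm.exists_walk_length_eq_dist
  have hyp : W.idx y ≤ W.idx p := hy.2.2 p hp h.symm
  obtain ⟨z, hz, hzl⟩ := W.sep p hp y hy.2.1 q hq hyp hi (w.mapLe (Bg_le W k m))
  rw [Walk.support_mapLe_eq_support] at hz
  classical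
  have e := congrArg Walk.length (w.take_spec hz)
  rw [Walk.length_append] at e
  refine ⟨z, hzl, (w.dropUntil z hz).reachable, ?_⟩
  have d1 := dist_le (w.dropUntil z hz)
  have d2 := dist_le (w.takeUntil z hz)
  have d3 := D_le W k m (x := z) (y := y) (by
    rw [src_eq W k m (w.dropUntil z hz).reachable]; exact hy)
  rw [dist_comm] at d3
  rw [dist_comm] at hD
  omega

theorem D_T [Finite V] (k m : ℕ) {p q : V} (hp : p ∈ W.N) (hq : q ∈ W.N)
    (h : (W.Bg k m).Reachable p q) (hi : W.idx p ≤ W.idx q) :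
    (W.D k m p : ℤ) + (W.Bg k m).dist p q ≤ W.D k m q + 2 * th k := by
  obtain ⟨z, hz, hzq, hD⟩ := cut W k m hp hq h hi
  have hb : W.bi k m p = W.bi k m z :=
    (bi_of_reach W k m h).1.trans (bi_of_reach W k m hzq).1.symm
  obtain ⟨r, hr⟩ := reach_of_L W k m hp (W.mem_L p hp) hz hb
  have hl := band_lt W k m hb
  have h1 := D_lip_nat W k m r.symm
  rw [dist_comm] at h1
  have h2 := dist_tri r hzq
  have h3 : ((W.Bg k m).dist p z : ℤ) < th k := lt_of_le_of_lt hr hl
  have h4 : (W.D k m p : ℤ) ≤ W.D k m z + (W.Bg k m).dist p z := by exact_mod_cast h1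
  have h5 : ((W.Bg k m).dist p q : ℤ) ≤ (W.Bg k m).dist p z + (W.Bg k m).dist z q := by
    exact_mod_cast h2
  have h6 : (W.D k m z : ℤ) + (W.Bg k m).dist z q ≤ W.D k m q := by exact_mod_cast hD
  linarith

theorem D_M [Finite V] (k m : ℕ) {q y : V} (hq : q ∈ W.N) (hy : y ∈ W.N)
    (h : (W.Bg k m).Reachable q y) (hi : W.idx q ≤ W.idx y) :
    (W.D k m q : ℤ) ≤ W.D k m y + |W.u q - W.u y| := by
  obtain ⟨z, hz, hzy, hD⟩ := cut W k m hq hy h hi
  have hb : W.bi k m q = W.bi k m z :=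
    (bi_of_reach W k m h).1.trans (bi_of_reach W k m hzy).1.symm
  obtain ⟨r, hr⟩ := reach_of_L W k m hq (W.mem_L q hq) hz hb
  have h1 := D_lip_nat W k m r.symm
  rw [dist_comm] at h1
  obtain ⟨w2, hw2⟩ := hzy.exists_walk_length_eq_dist
  have h2 : |W.u z - W.u y| ≤ (W.Bg k m).dist z y := by
    rw [← hw2]
    exact walk_u (G := W.Bg k m) (fun _ _ hh => W.unit _ _ (Bg_le W k m hh)) w2
  have h3 := abs_sub_le (W.u q) (W.u y) (W.u z)
  rw [abs_sub_comm (W.u y) (W.u z)] at h3
  have h4 : (W.D k m q : ℤ) ≤ W.D k m z + (W.Bg k m).dist q z := by exact_mod_cast h1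
  have h6 : (W.D k m z : ℤ) + (W.Bg k m).dist z y ≤ W.D k m y := by exact_mod_cast hD
  linarith

end Vale.Agent.P235.STO.H826
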