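import Vale.Agent.P235.H134.Grid.Defs

/-! P235: `c₁` under minors, up to a factor two: short lengths inside the branch sets, long
lengths outside. helper826. -/

namespace Vale.Agent.P235.ST.H826

open SimpleGraph Vale.Agent.P235 Vale.Agent.P235.H134

section path

variable {W : Type} {H : SimpleGraph W} {ℓ : Sym2 W → ℝ}

theorem len_nonneg (hℓ : ∀ e ∈ H.edgeSet, 0 < ℓ e) {a b : W} (w : H.Walk a b) :
    0 ≤ (w.edges.map ℓ).sum := by
  apply List.sum_nonneg
  intro x hx
  rw [List.mem_map] at hx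
  obtain ⟨e, he, rfl⟩ := hx
  exact (hℓ e (w.edges_subset_edgeSet he)).le

theorem bdd (hℓ : ∀ e ∈ H.edgeSet, 0 < ℓ e) (a b : W) :
    BddBelow (Set.range fun w : H.Walk a b => (w.edges.map ℓ).sum) :=
  ⟨0, by rintro _ ⟨w, rfl⟩; exact len_nonneg hℓ w⟩

theorem dist_le_walk (hℓ : ∀ e ∈ H.edgeSet, 0 < ℓ e) {a b : W} (w : H.Walk a b) :
    pathDist H ℓ a b ≤ (w.edges.map ℓ).sum := ciInf_le (bdd hℓ a b) w

theorem dist_nonneg' (hc : H.Connected) (hℓ : ∀ e ∈ H.edgeSet, 0 < ℓ e) (a b : W) :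
    0 ≤ pathDist H ℓ a b := by
  have : Nonempty (H.Walk a b) := hc.preconnected a b
  exact le_ciInf fun w => len_nonneg hℓ w

theorem dist_self' (hc : H.Connected) (hℓ : ∀ e ∈ H.edgeSet, 0 < ℓ e) (a : W) :
    pathDist H ℓ a a = 0 := by
  apply le_antisymm _ (dist_nonneg' hc hℓ a a)
  exact dist_le_walk hℓ (Walk.nil : H.Walk a a)

theorem dist_step (hc : H.Connected) (hℓ : ∀ e ∈ H.edgeSet, 0 < ℓ e) (a : W) {b c : W}
    (hbc : H.Adj b c) : pathDist H ℓ a c ≤ pathDist H ℓ a b + ℓ s(b, c) := by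
  have : Nonempty (H.Walk a b) := hc.preconnected a b
  have h1 : pathDist H ℓ a c - ℓ s(b, c) ≤ pathDist H ℓ a b := by
    apply le_ciInf
    intro w
    have h2 := dist_le_walk hℓ (w.concat hbc)
    rw [Walk.edges_concat, List.concat_eq_append, List.map_append, List.sum_append] at h2
    simp only [List.map_cons, List.map_nil, List.sum_cons, List.sum_nil, add_zero] at h2
    linarith
  linarith

theorem lip_walk {V : Type} {G : SimpleGraph V} {l : Sym2 V → ℝ} {φ : V → ℝ}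
    (h : ∀ x y, G.Adj x y → φ y ≤ φ x + l s(x, y)) {x y : V} (w : G.Walk x y) :
    φ y ≤ φ x + (w.edges.map l).sum := by
  induction w with
  | nil => simp
  | @cons a b c hab p ih =>
    have := h a b hab
    rw [Walk.edges_cons, List.map_cons, List.sum_cons]
    linarith

end path

section main

variable {V W : Type} {G : SimpleGraph V} {H : SimpleGraph W} {ℓ : Sym2 W → ℝ}

/-- the edge `e` of `G` runs between the branch sets of the ends of `f` -/
def Cross (μ : W → Set V) (f : Sym2 W) (e : Sym2 V) : Prop :=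
  ∃ a b x y, f = s(a, b) ∧ e = s(x, y) ∧ x ∈ μ a ∧ y ∈ μ b

theorem idx_unique {μ : W → Set V} (h2 : ∀ a b, a ≠ b → Disjoint (μ a) (μ b)) {a b : W} {x : V}
    (ha : x ∈ μ a) (hb : x ∈ μ b) : a = b := by
  by_contra h
  exact Set.disjoint_left.1 (h2 a b h) ha hb

theorem Cross.unique {μ : W → Set V} (h2 : ∀ a b, a ≠ b → Disjoint (μ a) (μ b))
    {f f' : Sym2 W} {e : Sym2 V} (h : Cross μ f e) (h' : Cross μ f' e) : f = f' := by
  obtain ⟨a, b, x, y, rfl, rfl, hx, hy⟩ := h
  obtain ⟨a', b', x', y', rfl, he, hx', hy'⟩ := h'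
  rw [Sym2.eq_iff] at he
  rcases he with ⟨rfl, rfl⟩ | ⟨rfl, rfl⟩
  · rw [idx_unique h2 hx hx', idx_unique h2 hy hy']
  · rw [idx_unique h2 hx hy', idx_unique h2 hy hx', Sym2.eq_swap]

open Classical in
/-- lengths on `G` -/
noncomputable def len (H : SimpleGraph W) (ℓ : Sym2 W → ℝ) (μ : W → Set V) (ε M : ℝ)
    (e : Sym2 V) : ℝ :=
  if ∃ a, ∀ x ∈ e, x ∈ μ a then ε
  else if h : ∃ f ∈ H.edgeSet, Cross μ f e then ℓ h.choose else M

variable {μ : W → Set V} {ε M : ℝ}

theorem len_in {a : W} {x y : V} (hx : x ∈ μ a) (hy : y ∈ μ a) :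
    len H ℓ μ ε M s(x, y) = ε := by
  unfold len
  rw [if_pos]
  refine ⟨a, ?_⟩
  intro z hz
  rw [Sym2.mem_iff] at hz
  rcases hz with rfl | rfl
  · exact hx
  · exact hy

theorem not_in (h2 : ∀ a b, a ≠ b → Disjoint (μ a) (μ b)) {a b : W} (hab : a ≠ b) {x y : V}
    (hx : x ∈ μ a) (hy : y ∈ μ b) : ¬ ∃ c, ∀ z ∈ s(x, y), z ∈ μ c := by
  rintro ⟨c, hc⟩
  have e1 := idx_unique h2 hx (hc x (by simp))
  have e2 := idx_unique h2 hy (hc y (by simp))
  exact hab (e1.trans e2.symm)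

theorem len_cross (h2 : ∀ a b, a ≠ b → Disjoint (μ a) (μ b)) {a b : W} (hab : H.Adj a b)
    {x y : V} (hx : x ∈ μ a) (hy : y ∈ μ b) : len H ℓ μ ε M s(x, y) = ℓ s(a, b) := by
  unfold len
  rw [if_neg (not_in h2 hab.ne hx hy)]
  have h : ∃ f ∈ H.edgeSet, Cross μ f s(x, y) :=
    ⟨s(a, b), hab, a, b, x, y, rfl, rfl, hx, hy⟩
  rw [dif_pos h]
  congr 1
  exact h.choose_spec.2.unique h2 ⟨a, b, x, y, rfl, rfl, hx, hy⟩

theorem len_cases (hε : 0 < ε) (hM : 0 < M) (hℓ : ∀ e ∈ H.edgeSet, 0 < ℓ e) (e : Sym2 V) :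
    0 < len H ℓ μ ε M e := by
  unfold len
  split_ifs with h1 h
  · exact hε
  · exact hℓ _ h.choose_spec.1
  · exact hM

theorem len_else {e : Sym2 V} (h1 : ¬ ∃ c, ∀ z ∈ e, z ∈ μ c)
    (h : ¬ ∃ f ∈ H.edgeSet, Cross μ f e) : len H ℓ μ ε M e = M := by
  unfold len
  rw [if_neg h1, dif_neg h]

/-- the lower bound -/
theorem lower [Finite W] (hc : H.Connected) (hℓ : ∀ e ∈ H.edgeSet, 0 < ℓ e)
    (h2 : ∀ a b, a ≠ b → Disjoint (μ a) (μ b)) (hε : 0 < ε)
    (hMd : ∀ a b, pathDist H ℓ a b ≤ M) (hG : G.Connected) {a b : W} {x y : V} (hx : x ∈ μ a)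
    (hy : y ∈ μ b) : pathDist H ℓ a b ≤ pathDist G (len H ℓ μ ε M) x y := by
  classical
  set φ : V → ℝ := fun v => if h : ∃ c, v ∈ μ c then pathDist H ℓ a h.choose else 0 with hφ
  have hval : ∀ c, ∀ v ∈ μ c, φ v = pathDist H ℓ a c := by
    intro c v hv
    have h : ∃ c, v ∈ μ c := ⟨c, hv⟩
    rw [hφ]
    simp only [dif_pos h]
    rw [idx_unique h2 h.choose_spec hv]
  have hout : ∀ v, (¬ ∃ c, v ∈ μ c) → φ v = 0 := by
    intro v hv
    rw [hφ]
    simp only [dif_neg hv]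
  have h0 : ∀ v, 0 ≤ φ v := by
    intro v
    by_cases hv : ∃ c, v ∈ μ c
    · obtain ⟨c, hc'⟩ := hv
      rw [hval c v hc']
      exact dist_nonneg' hc hℓ _ _
    · rw [hout v hv]
  have hM0 : 0 ≤ M := (dist_nonneg' hc hℓ a a).trans (hMd a a)
  have hle : ∀ v, φ v ≤ M := by
    intro v
    by_cases hv : ∃ c, v ∈ μ c
    · obtain ⟨c, hc'⟩ := hv
      rw [hval c v hc']
      exact hMd _ _
    · rw [hout v hv]
      exact hM0
  have hlip : ∀ u v, G.Adj u v → φ v ≤ φ u + len H ℓ μ ε M s(u, v) := by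
    intro u v _
    by_cases h1 : ∃ c, ∀ z ∈ s(u, v), z ∈ μ c
    · obtain ⟨c, hc'⟩ := h1
      have hu := hc' u (by simp)
      have hv := hc' v (by simp)
      rw [len_in hu hv, hval c u hu, hval c v hv]
      linarith
    · by_cases h : ∃ f ∈ H.edgeSet, Cross μ f s(u, v)
      · obtain ⟨f, hf, c, d, x', y', rfl, he, hx', hy'⟩ := h
        rw [mem_edgeSet] at hf
        rw [Sym2.eq_iff] at he
        rcases he with ⟨rfl, rfl⟩ | ⟨rfl, rfl⟩
        · rw [len_cross h2 hf hx' hy', hval c _ hx', hval d _ hy']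
          exact dist_step hc hℓ a hf
        · rw [len_cross h2 hf.symm hy' hx', hval c _ hx', hval d _ hy']
          exact dist_step hc hℓ a hf.symm
      · rw [len_else h1 h]
        have := h0 u
        have := hle v
        linarith
  have : Nonempty (G.Walk x y) := hG.preconnected x y
  apply le_ciInf
  intro w
  have h3 := lip_walk hlip w
  rw [hval a x hx, hval b y hy, dist_self' hc hℓ] at h3
  linarith

/-- walks inside a branch set are short -/
theorem inner [Fintype V] (h1 : ∀ a, (G.induce (μ a)).Connected) (hε : 0 < ε) {a : W} {x y : V}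
    (hx : x ∈ μ a) (hy : y ∈ μ a) :
    ∃ w : G.Walk x y, (w.edges.map (len H ℓ μ ε M)).sum ≤ ε * Fintype.card V := by
  classical
  obtain ⟨q⟩ := (h1 a).preconnected ⟨x, hx⟩ ⟨y, hy⟩
  have : Fintype (μ a) := Fintype.ofFinite _
  have hl : (q.toPath : (G.induce (μ a)).Walk ⟨x, hx⟩ ⟨y, hy⟩).length < Fintype.card (μ a) :=
    q.toPath.2.length_lt
  have hcard : Fintype.card (μ a) ≤ Fintype.card V :=
    Fintype.card_le_of_injective (fun z : μ a => (z : V)) Subtype.val_injective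
  set p := (q.toPath : (G.induce (μ a)).Walk ⟨x, hx⟩ ⟨y, hy⟩) with hp
  have key : ∀ {u v : μ a} (p : (G.induce (μ a)).Walk u v), ∃ w : G.Walk u.1 v.1,
      (w.edges.map (len H ℓ μ ε M)).sum = ε * p.length := by
    intro u v p
    induction p with
    | nil => exact ⟨Walk.nil, by simp⟩
    | @cons b c d hbc p ih =>
      obtain ⟨w, hw⟩ := ih
      have hadj : G.Adj b.1 c.1 := hbc
      refine ⟨Walk.cons hadj w, ?_⟩
      rw [Walk.edges_cons, List.map_cons, List.sum_cons, hw, len_in b.2 c.2, Walk.length_cons]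
      push_cast
      ring
  obtain ⟨w, hw⟩ := key p
  refine ⟨w, ?_⟩
  rw [hw]
  apply mul_le_mul_of_nonneg_left _ hε.le
  have : p.length ≤ Fintype.card V := by omega
  exact_mod_cast this

/-- walks of `H` lift to walks of `G` -/
theorem lift [Fintype V] (h1 : ∀ a, (G.induce (μ a)).Connected)
    (h2 : ∀ a b, a ≠ b → Disjoint (μ a) (μ b))
    (h3 : ∀ a b, H.Adj a b → ∃ x ∈ μ a, ∃ y ∈ μ b, G.Adj x y) (hε : 0 < ε) {a b : W}
    (w : H.Walk a b) : ∀ {x y : V}, x ∈ μ a → y ∈ μ b → ∃ p : G.Walk x y,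
      (p.edges.map (len H ℓ μ ε M)).sum ≤
        (w.edges.map ℓ).sum + ε * Fintype.card V * (w.length + 1) := by
  induction w with
  | nil =>
    intro x y hx hy
    obtain ⟨p, hp⟩ := inner (H := H) (ℓ := ℓ) (M := M) h1 hε hx hy
    refine ⟨p, hp.trans ?_⟩
    simp
  | @cons a c b hac w ih =>
    intro x y hx hy
    obtain ⟨x', hx', y', hy', hadj⟩ := h3 a c hac
    obtain ⟨p, hp⟩ := inner (H := H) (ℓ := ℓ) (M := M) h1 hε hx hx'
    obtain ⟨q, hq⟩ := ih hy' hy
    refine ⟨p.append (Walk.cons hadj q), ?_⟩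
    rw [Walk.edges_append, List.map_append, List.sum_append, Walk.edges_cons, List.map_cons,
      List.sum_cons, Walk.edges_cons, List.map_cons, List.sum_cons, len_cross h2 hac hx' hy',
      Walk.length_cons]
    push_cast
    linarith

theorem steps {m : ℝ} (hm : ∀ e ∈ H.edgeSet, m ≤ ℓ e) {a b : W} (w : H.Walk a b) :
    m * w.length ≤ (w.edges.map ℓ).sum := by
  induction w with
  | nil => simp
  | @cons a c b hac w ih =>
    have := hm s(a, c) hac
    rw [Walk.edges_cons, List.map_cons, List.sum_cons, Walk.length_cons]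
    push_cast
    linarith

/-- `c₁` of a minor, up to a factor two -/
theorem minor_distortion {V W : Type} [Finite V] [Finite W] {G : SimpleGraph V}
    {H : SimpleGraph W} (hG : G.Connected) (hc : H.Connected) (hm : IsMinor H G) {C : ℝ}
    (hC : 0 ≤ C) (h : DistortionLE G C) : DistortionLE H (2 * C) := by
  classical
  have : Fintype V := Fintype.ofFinite V
  have : Fintype W := Fintype.ofFinite W
  obtain ⟨μ, h1, h2, h3⟩ := hm
  intro ℓ hℓ
  obtain ⟨m, hm0, hm⟩ : ∃ m : ℝ, 0 < m ∧ ∀ e ∈ H.edgeSet, m ≤ ℓ e := by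
    rcases H.edgeSet.eq_empty_or_nonempty with he | hne
    · exact ⟨1, one_pos, by simp [he]⟩
    · obtain ⟨e, he, hmin⟩ := Set.exists_min_image H.edgeSet ℓ (Set.toFinite _) hne
      exact ⟨ℓ e, hℓ e he, hmin⟩
  obtain ⟨M, hM⟩ : ∃ M : ℝ, ∀ p : W × W, pathDist H ℓ p.1 p.2 ≤ M := by
    obtain ⟨M, hM⟩ := (Set.finite_range fun p : W × W => pathDist H ℓ p.1 p.2).bddAbove
    exact ⟨M, fun p => hM ⟨p, rfl⟩⟩
  set N : ℝ := (Fintype.card V : ℝ) with hN
  have hN0 : 0 ≤ N := Nat.cast_nonneg _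
  set ε : ℝ := m / (2 * (N + 1)) with hε
  have hε0 : 0 < ε := by positivity
  have hεN : ε * N * 2 ≤ m := by
    rw [hε, div_mul_eq_mul_div, div_mul_eq_mul_div, div_le_iff₀ (by positivity)]
    nlinarith
  have hM1 : 0 < |M| + 1 := by positivity
  obtain ⟨Ω, mΩ, ν, f, hf⟩ := h (len H ℓ μ ε (|M| + 1)) fun e _ => len_cases hε0 hM1 hℓ e
  have hne : ∀ a, (μ a).Nonempty := by
    intro a
    obtain ⟨⟨v, hv⟩⟩ := (h1 a).nonempty
    exact ⟨v, hv⟩
  choose r hr using hne
  refine ⟨Ω, mΩ, ν, fun a => f (r a), fun a b => ⟨?_, ?_⟩⟩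
  · refine le_trans ?_ (hf (r a) (r b)).1
    exact lower hc hℓ h2 hε0 (fun a b => (hM (a, b)).trans (by
      have := le_abs_self M
      linarith)) hG (hr a) (hr b)
  · refine (hf (r a) (r b)).2.trans ?_
    have hup : pathDist G (len H ℓ μ ε (|M| + 1)) (r a) (r b) ≤ 2 * pathDist H ℓ a b := by
      have hpos : ∀ e ∈ G.edgeSet, 0 < len H ℓ μ ε (|M| + 1) e := fun e _ =>
        len_cases hε0 hM1 hℓ e
      rcases eq_or_ne a b with rfl | hab
      · rw [dist_self' hG hpos]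
        have := dist_nonneg' hc hℓ a a
        linarith
      · have : Nonempty (H.Walk a b) := hc.preconnected a b
        have key : pathDist G (len H ℓ μ ε (|M| + 1)) (r a) (r b) / 2 ≤ pathDist H ℓ a b := by
          apply le_ciInf
          intro w
          obtain ⟨p, hp⟩ := lift (ℓ := ℓ) (M := |M| + 1) h1 h2 h3 hε0 w (hr a) (hr b)
          have h4 := dist_le_walk hpos p
          have h5 := steps hm w
          have h6 : 1 ≤ w.length := by
            rcases Nat.eq_zero_or_pos w.length with h0 | h0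
            · exact absurd (Walk.eq_of_length_eq_zero h0) hab
            · exact h0
          have h7 : (1 : ℝ) ≤ w.length := by exact_mod_cast h6
          have h8 : ε * N * (w.length + 1) ≤ m * w.length := by
            have h9 : ε * N * (w.length + 1) ≤ ε * N * (2 * w.length) := by
              apply mul_le_mul_of_nonneg_left _ (by positivity)
              linarith
            nlinarith
          linarith
        linarith
    nlinarith

end main

end Vale.Agent.P235.ST.H826
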